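import Vale.Agent.P352R.Pub3

namespace Vale.Agent.P352R.G

open P352.GF P

/-- **Linear energy bounds.** The smeared fields are bounded by the energy. -/
def LEB {D : Type*} [NormedAddCommGroup D] [InnerProductSpace ℂ D] (Q : Theory D) : Prop :=
  ∀ B f, Q.fld B → In Set.univ f → ∃ C : ℝ, ∀ v, ‖B f v‖ ≤ C * (‖v‖ + ‖Dv Q o v‖)

end Vale.Agent.P352R.G
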