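import Mathlib

/-!
# P352R, block Le: linear energy bounds give commuting resolvents (helper85)
-/

set_option autoImplicit false
set_option linter.all false

noncomputable section

namespace Vale.Agent.P352R.Le

open Complex (I)

variable {D H : Type*} [AddCommGroup D] [Module ℂ D] [NormedAddCommGroup H]
  [InnerProductSpace ℂ H] [CompleteSpace H] {i : D →ₗ[ℂ] H} {d A A' A'' : D →ₗ[ℂ] D}

open scoped InnerProductSpace

def Bd (i : D →ₗ[ℂ] H) (d A : D →ₗ[ℂ] D) : Prop := ∃ C : ℝ, ∀ v, ‖i (A v)‖ ≤ C * ‖i (v - d v)‖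

structure St (i : D →ₗ[ℂ] H) (d : D →ₗ[ℂ] D) : Prop where
  skew : ∀ v w, ⟪i (d v), i w⟫_ℂ = -⟪i v, i (d w)⟫_ℂ
  d1 : DenseRange fun v => i (v - d v)
  d2 : DenseRange fun v => i ((v - d v) - d (v - d v))
  d3 : DenseRange fun v => i (v + d v)

def Wc (i : D →ₗ[ℂ] H) (P P' : D → D) (Y : H →L[ℂ] H) : Prop :=
  ∀ v w, ⟪i (P' w), Y (i v)⟫_ℂ = ⟪i w, Y (i (P v))⟫_ℂ

theorem dn (f : D →ₗ[ℂ] H) {f' : D → H} (e : ∀ v, f v = f' v)
    (h : ∀ z, (∀ v, ⟪z, f' v⟫_ℂ = 0) → z = 0) : DenseRange f' := by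
  obtain rfl : f = f' := funext e
  have : Dense ((LinearMap.range f : Submodule ℂ H) : Set H) := by
    rw [Submodule.dense_iff_topologicalClosure_eq_top, Submodule.topologicalClosure_eq_top_iff,
      Submodule.eq_bot_iff]
    exact fun z hz => h z fun v => (Submodule.mem_orthogonal' _ _).1 hz _ ⟨v, rfl⟩
  exact this

theorem ex (f e : D →ₗ[ℂ] H) {e' : D → H} (k : ∀ v, e v = e' v) (h : DenseRange e')
    (b : ∃ C : ℝ, ∀ v, ‖f v‖ ≤ C * ‖e' v‖) : ∃ T : H →L[ℂ] H, ∀ v, T (e' v) = f v := by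
  obtain rfl : e = e' := funext k
  exact ⟨f.extendOfNorm e, LinearMap.extendOfNorm_eq h b⟩

theorem nle {x y : H} (h : (⟪x, y⟫_ℂ).re = 0) : ‖x‖ ≤ ‖x + y‖ := by
  have e := norm_add_sq (𝕜 := ℂ) x y
  have h' : RCLike.re ⟪x, y⟫_ℂ = 0 := h
  rw [h'] at e
  exact le_of_sq_le_sq (by nlinarith [sq_nonneg ‖y‖]) (norm_nonneg _)

theorem St.re0 (h : St i d) (v : D) : (⟪i v, i (d v)⟫_ℂ).re = 0 := by
  have e := congrArg Complex.re (h.skew v v)
  rw [← inner_conj_symm, Complex.conj_re, Complex.neg_re] at e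
  linarith

theorem St.n1 (h : St i d) (v : D) : ‖i v‖ ≤ 1 * ‖i (v - d v)‖ := by
  rw [one_mul, map_sub, sub_eq_add_neg]
  exact nle (by rw [inner_neg_right, Complex.neg_re, h.re0, neg_zero])

theorem St.T (h : St i d) (b : Bd i d A) : ∃ T : H →L[ℂ] H, ∀ v, T (i (v - d v)) = i (A v) :=
  ex (i ∘ₗ A) (i - i ∘ₗ d) (by simp) h.d1 b

theorem St.idT (h : St i d) {J T T' : H →L[ℂ] H} (e : ∀ v, d (A v) = A (d v) + A' v)
    (hJ : ∀ v, J (i (v - d v)) = i v) (hT : ∀ v, T (i (v - d v)) = i (A v))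
    (hT' : ∀ v, T' (i (v - d v)) = i (A' v)) (y : H) : T (J y) = J (T y - T' (J y)) := by
  refine h.d2.induction_on y (isClosed_eq (by fun_prop) (by fun_prop)) fun u => ?_
  rw [hJ, hT, hT, hT', ← map_sub, ← hJ (A u), e, map_sub A, sub_sub]

theorem St.den (h : St i d) (sy : ∀ v w, ⟪i (A v), i w⟫_ℂ = ⟪i v, i (A w)⟫_ℂ)
    (e1 : ∀ v, d (A v) = A (d v) + A' v) (e2 : ∀ v, d (A' v) = A' (d v) + A'' v)
    (b : Bd i d A) (b' : Bd i d A') (b'' : Bd i d A'') : ∃ c : ℝ, ∀ l : ℝ, c < |l| →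
      DenseRange fun v => i ((A v + (l * I) • v) - d (A v + (l * I) • v)) := by
  obtain ⟨J, hJ⟩ : ∃ T : H →L[ℂ] H, ∀ v, T (i (v - d v)) = i v := h.T (A := .id) ⟨1, h.n1⟩
  obtain ⟨T, hT⟩ := h.T b
  obtain ⟨T', hT'⟩ := h.T b'
  obtain ⟨T'', hT''⟩ := h.T b''
  obtain ⟨J', hJ'⟩ : ∃ T : H →L[ℂ] H, ∀ v, T (i (v + d v)) = i v :=
    ex i (i + i ∘ₗ d) (by simp) h.d3 ⟨1, fun v => by
      rw [one_mul, map_add]; exact nle (h.re0 v)⟩
  have ad : ∀ z y, ⟪z, J y⟫_ℂ = ⟪J' z, y⟫_ℂ := fun z y => by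
    refine h.d3.induction_on z (isClosed_eq (by fun_prop) (by fun_prop)) fun v => ?_
    refine h.d1.induction_on y (isClosed_eq (by fun_prop) (by fun_prop)) fun u => ?_
    rw [hJ, hJ', map_add, map_sub, inner_add_left, inner_sub_right, h.skew, sub_eq_add_neg]
  have hR : ∀ z, J' z = J (J' z + J' z - z) := fun z => by
    refine h.d3.induction_on z (isClosed_eq (by fun_prop) (by fun_prop)) fun v => ?_
    rw [hJ', ← map_add, ← map_sub, add_sub_add_left_eq_sub, hJ]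
  have sm : ∀ y y', ⟪T y, J y'⟫_ℂ = ⟪J y, T y'⟫_ℂ := fun y y' => by
    refine h.d1.induction_on y (isClosed_eq (by fun_prop) (by fun_prop)) fun v => ?_
    refine h.d1.induction_on y' (isClosed_eq (by fun_prop) (by fun_prop)) fun u => ?_
    rw [hJ, hJ, hT, hT, sy]
  refine ⟨‖T' + T' - T'' ∘L J‖, fun l hl => dn ((i - i ∘ₗ d) ∘ₗ A + (l * I) • (i - i ∘ₗ d))
    (fun v => by simp [smul_sub]; abel) fun z hz => ?_⟩
  have k : ∀ y, ⟪z, T y - T' (J y) + (l * I) • J y⟫_ℂ = 0 := fun y => by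
    refine h.d2.induction_on y (isClosed_eq (by fun_prop) (by fun_prop)) fun u => ?_
    rw [hJ, hT, hT', ← hz u, ← map_smul, ← map_sub, ← map_add]
    congr 2
    simp only [map_add, map_sub, map_smul, e1, smul_sub]
    abel
  have k1 := k (J' z)
  have r := sm (J' z + J' z - z) (J' z + J' z - z)
  have a1 := h.idT e1 hJ hT hT' (J' z + J' z - z)
  rw [← hR] at r a1
  rw [inner_add_right, inner_sub_right, inner_smul_right, a1, h.idT e2 hJ hT' hT'', ad, ad, ad,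
    inner_sub_right, inner_sub_right, inner_self_eq_norm_sq_to_K] at k1
  have r' := congrArg Complex.im r
  rw [← inner_conj_symm, Complex.conj_im] at r'
  have k2 := congrArg Complex.im k1
  have n1 := (Complex.abs_im_le_norm ⟪J' z, (T' + T' - T'' ∘L J) (J' z)⟫_ℂ).trans
    ((norm_inner_le_norm _ _).trans (mul_le_mul_of_nonneg_left
      ((T' + T' - T'' ∘L J).le_opNorm _) (norm_nonneg _)))
  have k3 : (⟪J' z, (T' + T' - T'' ∘L J) (J' z)⟫_ℂ).im = l * ‖J' z‖ ^ 2 := by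
    have : ((l * I) * ((‖J' z‖ : ℂ)) ^ 2).im = l * ‖J' z‖ ^ 2 := by
      rw [← Complex.ofReal_pow]; simp [-Complex.ofReal_pow]
    simp only [Complex.add_im, Complex.sub_im, Complex.zero_im, Complex.coe_algebraMap, this] at k2
    simp only [ContinuousLinearMap.sub_apply, ContinuousLinearMap.add_apply,
      ContinuousLinearMap.comp_apply, inner_sub_right, inner_add_right, Complex.add_im,
      Complex.sub_im]
    linarith
  rw [k3, abs_mul, abs_sq] at n1
  have y0 : J' z = 0 := by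
    by_contra hne
    have := norm_pos_iff.2 hne
    nlinarith [mul_pos (sub_pos.2 hl) (pow_pos this 2)]
  refine h.d1.eq_zero_of_inner_left (𝕜 := ℂ) fun v => ?_
  rw [← hJ, ad, y0, inner_zero_left]

theorem St.res (h : St i d) (sy : ∀ v w, ⟪i (A v), i w⟫_ℂ = ⟪i v, i (A w)⟫_ℂ)
    (e1 : ∀ v, d (A v) = A (d v) + A' v) (e2 : ∀ v, d (A' v) = A' (d v) + A'' v)
    (b : Bd i d A) (b' : Bd i d A') (b'' : Bd i d A'') : ∃ G : H →L[ℂ] H,
      (∀ Y, Wc i A A Y ↔ Y * G = G * Y) ∧ ∀ (B : D →ₗ[ℂ] D) (B' : D → D),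
        (∀ v w, ⟪i (B v), i w⟫_ℂ = ⟪i v, i (B' w)⟫_ℂ) → Bd i d B → (∀ v, A (B v) = B (A v)) →
          Wc i B B' G := by
  obtain ⟨c, hc⟩ := h.den sy e1 e2 b b' b''
  obtain ⟨J, hJ⟩ : ∃ T : H →L[ℂ] H, ∀ v, T (i (v - d v)) = i v := h.T (A := .id) ⟨1, h.n1⟩
  have dJ : DenseRange J := DenseRange.of_comp (f := J)
    (g := fun v => i ((v - d v) - d (v - d v))) (by simpa only [Function.comp_def, hJ] using h.d1)
  have dd : ∀ l : ℝ, c < |l| → DenseRange fun v => i (A v + (l * I) • v) := fun l hl => by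
    simpa only [Function.comp_def, hJ] using dJ.comp (hc l hl) J.continuous
  set l : ℝ := |c| + 1
  have l1 : 1 ≤ l := le_add_of_nonneg_left (abs_nonneg c)
  have hl : c < |l| := ((le_abs_self c).trans_lt (lt_add_one _)).trans_le (le_abs_self l)
  obtain ⟨G, hG⟩ : ∃ T : H →L[ℂ] H, ∀ v, T (i (A v + (l * I) • v)) = i v :=
    ex i (i ∘ₗ A + (l * I) • i) (by simp) (dd l hl) ⟨1, fun v => by
      have s := congrArg Complex.im (sy v v)
      rw [← inner_conj_symm, Complex.conj_im] at s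
      rw [one_mul, map_add, map_smul, add_comm]
      refine le_trans ?_ (nle ?_)
      · rw [norm_smul, norm_mul, Complex.norm_I, mul_one, Complex.norm_real, Real.norm_eq_abs]
        exact le_mul_of_one_le_left (norm_nonneg _) (l1.trans (le_abs_self l))
      · have : (⟪i v, i (A v)⟫_ℂ).im = 0 := by linarith
        simp [inner_smul_left, this]⟩
  have ad : ∀ w y, ⟪i (A w + ((-l : ℝ) * I) • w), G y⟫_ℂ = ⟪i w, y⟫_ℂ := fun w y => by
    refine (dd l hl).induction_on y (isClosed_eq (by fun_prop) (by fun_prop)) fun v => ?_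
    rw [hG]
    simp [inner_add_left, inner_add_right, inner_smul_left, inner_smul_right, sy]
  refine ⟨G, fun Y => ⟨fun k => ContinuousLinearMap.ext fun y => ?_, fun k v w => ?_⟩,
    fun B B' a bB cm v w => ?_⟩
  · refine (dd l hl).induction_on y (isClosed_eq (by fun_prop) (by fun_prop)) fun v => ?_
    refine (dd (-l) (by rwa [abs_neg])).eq_of_inner_right (𝕜 := ℂ) fun w => ?_
    show ⟪_, Y (G _)⟫_ℂ = ⟪_, G (Y _)⟫_ℂ
    rw [ad, hG]
    simp [inner_add_left, inner_add_right, inner_smul_left, inner_smul_right, k v w]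
  · have e := ad w (Y (i (A v + (l * I) • v)))
    rw [show G (Y _) = Y (G _) from (DFunLike.congr_fun k _).symm, hG] at e
    simpa [inner_add_left, inner_add_right, inner_smul_left, inner_smul_right] using e
  · obtain ⟨T, hT⟩ := h.T bB
    have k : ∀ y, ⟪i (B' w), G (J y)⟫_ℂ = ⟪i w, G (T y)⟫_ℂ := fun y => by
      refine (hc l hl).induction_on y (isClosed_eq (by fun_prop) (by fun_prop)) fun u => ?_
      rw [hJ, hT, hG, map_add, map_smul, ← cm, hG, ← inner_conj_symm, ← a, inner_conj_symm]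
    simpa only [hJ, hT] using k (i (v - d v))

end Vale.Agent.P352R.Le
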