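import Vale.Agent.P352R.Le.Abs

/-!
# P352R, block Le: cores, and pairs of adjoint operators (helper85)
-/

set_option autoImplicit false
set_option linter.all false

noncomputable section

namespace Vale.Agent.P352R.Le

open Complex (I)
open Filter Topology

variable {D H : Type*} [AddCommGroup D] [Module ℂ D] [NormedAddCommGroup H]
  [InnerProductSpace ℂ H] [CompleteSpace H] {i : D →ₗ[ℂ] H} {d : D →ₗ[ℂ] D} {P P' : D → D}

open scoped InnerProductSpace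

theorem ode {f f' : ℝ → ℂ} {M σ : ℝ} (h : ∀ t, HasDerivAt f (f' t) t) (e : ∀ t, f' t = σ * f t)
    (s : σ * σ = 1) (b : ∀ t, ‖f t‖ ≤ M) : f 0 = 0 := by
  have k : ∀ t, HasDerivAt (fun t : ℝ => (Real.exp (-σ * t) : ℂ) * f t) 0 t := fun t => by
    refine (((hasDerivAt_id t).const_mul (-σ)).exp.ofReal_comp.mul (h t)).congr_deriv ?_
    rw [e]; push_cast; ring
  have c := is_const_of_deriv_eq_zero (fun t => (k t).differentiableAt) fun t => (k t).deriv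
  refine norm_le_zero_iff.1 (ge_of_tendsto' (x := atTop)
    (by simpa using Real.tendsto_exp_neg_atTop_nhds_zero.mul_const M) fun t : ℝ => ?_)
  have c' := c 0 (σ * t)
  rw [mul_zero, Real.exp_zero, Complex.ofReal_one, one_mul, ← mul_assoc, neg_mul, s,
    neg_one_mul] at c'
  rw [c', norm_mul, Complex.norm_real, Real.norm_eq_abs, abs_of_pos (Real.exp_pos _)]
  exact mul_le_mul_of_nonneg_left (b _) (Real.exp_pos _).le

theorem st_of (U : ℝ → D → D) (di : DenseRange i)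
    (iso : ∀ t v w, ⟪i (U t v), i (U t w)⟫_ℂ = ⟪i v, i w⟫_ℂ) (nm : ∀ t v, ‖i (U t v)‖ = ‖i v‖)
    (der : ∀ v t, HasDerivAt (fun t => i (U t v)) (i (d (U t v))) t) (U0 : ∀ v, U 0 v = v)
    (cm : ∀ t v, U t (v - d v) = U t v - d (U t v)) : St i d := by
  have k : ∀ (σ : ℝ) z v, σ * σ = 1 → (∀ t, ⟪z, i (d (U t v))⟫_ℂ = σ * ⟪z, i (U t v)⟫_ℂ) →
      ⟪z, i v⟫_ℂ = 0 := fun σ z v s e => by
    have := ode (f := fun t => ⟪z, i (U t v)⟫_ℂ) (M := ‖z‖ * ‖i v‖)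
      (fun t => by simpa using (hasDerivAt_const t z).inner ℂ (der v t)) e s
      fun t => nm t v ▸ norm_inner_le_norm _ _
    rwa [U0] at this
  have d1 : ∀ z, (∀ v, ⟪z, i (v - d v)⟫_ℂ = 0) → z = 0 := fun z h =>
    di.eq_zero_of_inner_left (𝕜 := ℂ) fun v => k 1 z v (one_mul 1) fun t => by
      have := h (U t v)
      rw [map_sub, inner_sub_right, sub_eq_zero] at this
      simp [this]
  refine ⟨fun v w => ?_, dn (i - i ∘ₗ d) (by simp) d1,
    dn ((i - i ∘ₗ d) ∘ₗ (.id - d)) (by simp) fun z h => d1 z fun v =>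
      k 1 z _ (one_mul 1) fun t => ?_,
    dn (i + i ∘ₗ d) (by simp) fun z h => di.eq_zero_of_inner_left (𝕜 := ℂ) fun v =>
      k (-1) z v (by norm_num) fun t => ?_⟩
  · have a := (der v 0).inner ℂ (der w 0)
    simp only [iso, U0] at a
    have := a.unique (hasDerivAt_const _ _)
    linear_combination this
  · have := h (U t v)
    rw [map_sub, inner_sub_right, sub_eq_zero] at this
    rw [cm, this, Complex.ofReal_one, one_mul]
  · have := h (U t v)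
    rw [map_add, inner_add_right] at this
    push_cast
    linear_combination this

def T2 (i : D →ₗ[ℂ] H) (d : D →ₗ[ℂ] D) (P : D → D) : Prop :=
  ∃ A A' A'' : D →ₗ[ℂ] D, ⇑A = P ∧ (∀ v, d (A v) = A (d v) + A' v) ∧
    (∀ v, d (A' v) = A' (d v) + A'' v) ∧ Bd i d A ∧ Bd i d A' ∧ Bd i d A''

theorem Bd.lc {A B : D →ₗ[ℂ] D} (a : Bd i d A) (b : Bd i d B) (x y : ℂ) :
    Bd i d (x • A + y • B) := by
  obtain ⟨C, a⟩ := a
  obtain ⟨C', b⟩ := b
  refine ⟨‖x‖ * C + ‖y‖ * C', fun v => ?_⟩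
  rw [LinearMap.add_apply, LinearMap.smul_apply, LinearMap.smul_apply, map_add, map_smul, map_smul,
    add_mul, mul_assoc, mul_assoc]
  refine (norm_add_le _ _).trans ?_
  rw [norm_smul, norm_smul]
  exact add_le_add (mul_le_mul_of_nonneg_left (a v) (norm_nonneg _))
    (mul_le_mul_of_nonneg_left (b v) (norm_nonneg _))

theorem T2.comp (t : T2 i d P) (G : D →ₗ[ℂ] D) (c : ∀ v, d (G v) = G (d v))
    (n : ∀ v, ‖i (G v)‖ = ‖i v‖) : T2 i d (fun v => P (G v)) ∧ T2 i d fun v => G (P v) := by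
  obtain ⟨A, A', A'', rfl, e1, e2, b, b', b''⟩ := t
  have k : ∀ B, Bd i d B → Bd i d (B ∘ₗ G) ∧ Bd i d (G ∘ₗ B) := fun B ⟨C, h⟩ =>
    ⟨⟨C, fun v => by rw [← n (v - d v), map_sub G, ← c]; exact h _⟩, C, fun v => (n _).trans_le (h v)⟩
  exact ⟨⟨A ∘ₗ G, A' ∘ₗ G, A'' ∘ₗ G, rfl, fun v => by simp [e1, c], fun v => by simp [e2, c],
    (k _ b).1, (k _ b').1, (k _ b'').1⟩, G ∘ₗ A, G ∘ₗ A', G ∘ₗ A'', rfl, fun v => by simp [e1, c],
    fun v => by simp [e2, c], (k _ b).2, (k _ b').2, (k _ b'').2⟩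

theorem St.pair (h : St i d) (a : ∀ v w, ⟪i (P v), i w⟫_ℂ = ⟪i v, i (P' w)⟫_ℂ) (t : T2 i d P)
    (t' : T2 i d P') : ∃ S : Set (H →L[ℂ] H),
      (∀ Y, Wc i P P' Y ∧ Wc i P' P Y ↔ ∀ G ∈ S, Y * G = G * Y) ∧
      ∀ B B' : D → D, (∀ v w, ⟪i (B v), i w⟫_ℂ = ⟪i v, i (B' w)⟫_ℂ) → T2 i d B →
        (∀ v, P (B v) = B (P v)) → (∀ v, P' (B v) = B (P' v)) → ∀ G ∈ S, Wc i B B' G := by
  obtain ⟨A, A', A'', rfl, e1, e2, b, b', b''⟩ := t
  obtain ⟨C, C', C'', rfl, f1, f2, c, c', c''⟩ := t'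
  have a' : ∀ v w, ⟪i (C v), i w⟫_ℂ = ⟪i v, i (A w)⟫_ℂ := fun v w => by
    rw [← inner_conj_symm, ← a, inner_conj_symm]
  have k : ∀ x : ℂ, ∃ G : H →L[ℂ] H, (∀ Y, (∀ v w, star x * ⟪i (A w), Y (i v)⟫_ℂ +
      x * ⟪i (C w), Y (i v)⟫_ℂ = x * ⟪i w, Y (i (A v))⟫_ℂ + star x * ⟪i w, Y (i (C v))⟫_ℂ) ↔
      Y * G = G * Y) ∧ ∀ B B' : D → D, (∀ v w, ⟪i (B v), i w⟫_ℂ = ⟪i v, i (B' w)⟫_ℂ) → T2 i d B →
        (∀ v, A (B v) = B (A v)) → (∀ v, C (B v) = B (C v)) → Wc i B B' G := fun x => by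
    obtain ⟨G, p, q⟩ := h.res (A := x • A + star x • C) (A' := x • A' + star x • C')
      (A'' := x • A'' + star x • C'')
      (fun v w => by
        simp [inner_add_left, inner_add_right, inner_smul_left, inner_smul_right, a, a', add_comm,
          mul_comm])
      (fun v => by simp [e1, f1]; abel) (fun v => by simp [e2, f2]; abel) (b.lc c _ _)
      (b'.lc c' _ _) (b''.lc c'' _ _)
    refine ⟨G, fun Y => .trans ?_ (p Y), ?_⟩
    · simp [Wc, inner_add_left, inner_add_right, inner_smul_left, inner_smul_right, mul_comm]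
    · rintro _ B' s ⟨B, -, -, rfl, -, -, m, -⟩ u u'
      exact q B B' s m fun v => by simp [u, u']
  obtain ⟨G, p, q⟩ := k 1
  obtain ⟨G', p', q'⟩ := k I
  refine ⟨{G, G'}, fun Y => ?_, fun B B' s m u u' Z hZ => ?_⟩
  · simp only [Set.mem_insert_iff, Set.mem_singleton_iff, forall_eq_or_imp, forall_eq, ← p, ← p',
      Wc, star_one, Complex.star_def, Complex.conj_I]
    refine ⟨fun ⟨x, y⟩ => ⟨fun v w => ?_, fun v w => ?_⟩, fun ⟨x, y⟩ => ⟨fun v w => ?_, fun v w => ?_⟩⟩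
    · linear_combination x v w + y v w
    · linear_combination I * x v w - I * y v w
    · linear_combination (1 / 2 : ℂ) * x v w - I / 2 * y v w + (⟪i (A w), Y (i v)⟫_ℂ -
        ⟪i (C w), Y (i v)⟫_ℂ + ⟪i w, Y (i (A v))⟫_ℂ - ⟪i w, Y (i (C v))⟫_ℂ) / (-2) * Complex.I_mul_I
    · linear_combination (1 / 2 : ℂ) * x v w + I / 2 * y v w + (⟪i (A w), Y (i v)⟫_ℂ -
        ⟪i (C w), Y (i v)⟫_ℂ + ⟪i w, Y (i (A v))⟫_ℂ - ⟪i w, Y (i (C v))⟫_ℂ) / 2 * Complex.I_mul_I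
  · rcases hZ with rfl | rfl
    exacts [q B B' s m u u', q' B B' s m u u']

end Vale.Agent.P352R.Le
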