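import Vale.Agent.P352R.Le.Core
import Vale.Agent.P352R.Le.Pub
import Vale.Agent.P352R.Lg.Net
import Vale.Agent.P352R.Cf.Pub
import Vale.Agent.P352R.L72.WitL
import Vale.Agent.P352X.EG.WB
import Vale.Agent.P352W.Net.Lnm

/-!
# P352R, block Le: linear energy bounds give a graded local net (helper85)
-/

set_option autoImplicit false
set_option linter.all false

noncomputable section

namespace Vale.Agent.P352R.Le

open P352 GF P352R.P P352R.G P352W.Net P352X.EG.Wb
open UniformSpace (Completion)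

open scoped InnerProductSpace

theorem hd {E F : Type*} [NormedAddCommGroup E] [InnerProductSpace ℂ E] [NormedAddCommGroup F]
    [InnerProductSpace ℂ F] (T : E →L[ℂ] F) {f : ℝ → E} {f' : E} {t : ℝ} (h : HasDerivAt f f' t) :
    HasDerivAt (fun s => T (f s)) (T f') t :=
  (T.restrictScalars ℝ).hasFDerivAt.comp_hasDerivAt t h

variable {D : Type*} [NormedAddCommGroup D] [InnerProductSpace ℂ D] {Q : Theory D} {G : D → D}
  {Γ : Completion D →L[ℂ] Completion D} {S S' : Set V} {P P' : D → D} {B : Fld D} {f : Fn}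

def ι : D →ₗ[ℂ] Completion D := (Completion.toComplL : D →L[ℂ] Completion D).toLinearMap

theorem ii (v w : D) : ⟪ι v, ι w⟫_ℂ = ⟪v, w⟫_ℂ := Completion.inner_coe v w

theorem ni (v : D) : ‖ι v‖ = ‖v‖ := Completion.norm_coe v

def Ad (P P' : D → D) : Prop := ∀ v w, ⟪P v, w⟫_ℂ = ⟪v, P' w⟫_ℂ

theorem Ad.symm (a : Ad P P') : Ad P' P := fun v w => by
  rw [← inner_conj_symm, ← a, inner_conj_symm]

theorem Ad.i (a : Ad P P') (v w : D) : ⟪ι (P v), ι w⟫_ℂ = ⟪ι v, ι (P' w)⟫_ℂ := by rw [ii, ii, a]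

def Ad.L (a : Ad P P') : D →ₗ[ℂ] D where
  toFun := P
  map_add' v w := ext_inner_right ℂ fun u => by rw [inner_add_left, a, a, a, inner_add_left]
  map_smul' c v := ext_inner_right ℂ fun u => by
    rw [RingHom.id_apply, inner_smul_left, a, a, inner_smul_left]

theorem in_bar (h : In S f) : In S (bar f) := H246.In.bar h

theorem fad (hB : Q.fld B) : ∃ C, Q.fld C ∧ ∀ f, IsTest f → Ad (B f) (C (bar f)) :=
  (Q.adj B hB).imp fun _ h => ⟨h.1, fun f hf v w => h.2 f v w hf⟩

theorem fad' (hB : Q.fld B) (hf : In S f) (a : Ad (B f) P') :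
    ∃ C g, Q.fld C ∧ In S g ∧ P' = C g :=
  have ⟨C, c, b⟩ := fad hB
  ⟨C, _, c, in_bar hf, funext fun w => ext_inner_left ℂ fun v => by rw [← a, b f hf.1]⟩

def dL (R : Dr Q) : D →ₗ[ℂ] D where
  toFun := H246.Dv Q o
  map_add' := (DvA R o).map_add
  map_smul' c v := H246.Dv_eq (by
    simp only [H246.U1_smul]
    exact (R o v).const_smul c)

theorem st (R : Dr Q) : St ι (dL R) :=
  st_of (fun t v => H246.U1 Q (t • eb o) v) Completion.denseRange_coe
    (fun t v w => by rw [ii, ii, H246.U1_inner]) (fun t v => by rw [ni, ni, H246.U1_norm])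
    (fun v t => hd Completion.toComplL (by
      have := HasDerivAt.comp_sub_const t t (by rw [sub_self]; exact R o (H246.U1 Q (t • eb o) v))
      simpa only [H496.U1_U1_all, ← add_smul, sub_add_cancel] using this))
    (fun v => by rw [zero_smul, H246.U1_zero_all]) fun t v => by
      rw [eq_sub_iff_add_eq]
      show _ + H246.Dv _ _ _ = _
      rw [Dv_U R, ← H246.U1_add]
      exact congrArg _ (sub_add_cancel _ _)

theorem t2 (R : Dr Q) (e : LEB Q) (hB : Q.fld B) (hf : In S f) : T2 ι (dL R) (B f) := by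
  obtain ⟨C, -, a⟩ := fad hB
  have p : ∀ f, In Set.univ f → In Set.univ (pd o f) := fun f hf =>
    ⟨H15.isTest_pd hf.1, hf.2.1.of_isClosed_subset (isClosed_tsupport _) (H755.tsupport_pd o),
      Set.subset_univ _⟩
  have b : ∀ f (hf : In Set.univ f), Bd ι (dL R) (a f hf.1).L := fun f hf => by
    obtain ⟨c, h⟩ := e B f hB hf
    refine ⟨|c| * 3, fun v => ?_⟩
    have n1 := (st R).n1 v
    have n2 : ‖dL R v‖ ≤ ‖v‖ + ‖v - dL R v‖ := by
      simpa using norm_sub_le v (v - dL R v)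
    rw [ni, ni] at n1 ⊢
    refine (h v).trans ((mul_le_mul_of_nonneg_right (le_abs_self c) (by positivity)).trans ?_)
    rw [mul_assoc]
    exact mul_le_mul_of_nonneg_left (by change _ + ‖dL R v‖ ≤ _; linarith) (abs_nonneg c)
  have u : In Set.univ f := ⟨hf.1, hf.2.1, Set.subset_univ _⟩
  refine ⟨(a f u.1).L, -(a _ (p f u).1).L, (a _ (p _ (p f u)).1).L, rfl,
    fun v => (Dv_fld R o hB u.1 v).trans (add_comm _ _), fun v => ?_, b f u, ?_, b _ (p _ (p f u))⟩
  · rw [LinearMap.neg_apply, LinearMap.neg_apply, map_neg]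
    refine (congrArg _ (Dv_fld R o hB (p f u).1 v)).trans ?_
    rw [neg_add, neg_neg, add_comm]
    rfl
  · exact (b _ (p f u)).imp fun c h v => by rw [LinearMap.neg_apply, map_neg, norm_neg]; exact h v

/-- the weak commutant of the fields smeared in `S` -/
def WS (Q : Theory D) (S : Set V) : Set (Completion D →L[ℂ] Completion D) :=
  {Y | ∀ B f P', Q.fld B → In S f → Ad (B f) P' → Wc ι (B f) P' Y}

theorem ws2 {Y : Completion D →L[ℂ] Completion D} (h : Y ∈ WS Q S) (hB : Q.fld B) (hf : In S f)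
    (a : Ad (B f) P') : Wc ι (B f) P' Y ∧ Wc ι P' (B f) Y := by
  obtain ⟨C, g, c, hg, rfl⟩ := fad' hB hf a
  exact ⟨h _ _ _ hB hf a, h _ _ _ c hg a.symm⟩

theorem ws_star : ∀ Y ∈ WS Q S, star Y ∈ WS Q S := fun Y h B f P' hB hf a v w => by
  rw [ContinuousLinearMap.star_eq_adjoint, ContinuousLinearMap.adjoint_inner_right,
    ContinuousLinearMap.adjoint_inner_right, ← inner_conj_symm, ← (ws2 h hB hf a).2 w v,
    inner_conj_symm]

/-- the net -/
def N (Q : Theory D) (S : Set V) : VonNeumannAlgebra (Completion D) := cmt (WS Q S)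

theorem key (R : Dr Q) (e : LEB Q) (a : Ad P P') (t : T2 ι (dL R) P) (t' : T2 ι (dL R) P')
    (c : ∀ B f v, Q.fld B → In S f → P (B f v) = B f (P v)) : ∀ X ∈ N Q S, Wc ι P P' X := by
  obtain ⟨S₀, p, q⟩ := (st R).pair a.i t t'
  refine fun X hX => ((p X).2 fun Z hZ => ((mem_cmt ws_star).1 hX Z
    fun B f B' hB hf b => q _ _ b.i (t2 R e hB hf) (fun v => c B f v hB hf) (fun v => ?_) Z hZ).symm).1
  obtain ⟨C, g, hC, hg, rfl⟩ := fad' hB hf b
  refine ext_inner_left ℂ fun u => ?_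
  rw [← a, ← b.symm, ← c C g u hC hg, a, b.symm]

theorem aff (R : Dr Q) (e : LEB Q) (hB : Q.fld B) (hf : In S f) : Aff (N Q S) (B f) := by
  obtain ⟨C, hC, a⟩ := fad hB
  obtain ⟨S₀, p, -⟩ := (st R).pair (a f hf.1).i (t2 R e hB hf) (t2 R e hC (in_bar hf))
  exact ⟨_, a f hf.1, fun Y hY => ((p Y).2 fun Z hZ => (VonNeumannAlgebra.mem_commutant_iff.1 hY Z
    ((mem_cmt ws_star).2 fun X hX => (p X).1 (ws2 hX hB hf (a f hf.1)) Z hZ)).symm).1⟩

theorem trans {W W' : Completion D →L[ℂ] Completion D} {u : D → D} (hu : ∀ v, W (ι v) = ι (u v))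
    (su : Function.Surjective u) (iu : ∀ v w, ⟪u v, u w⟫_ℂ = ⟪v, w⟫_ℂ)
    (ad : ∀ x y, ⟪x, W' y⟫_ℂ = ⟪W x, y⟫_ℂ) (w1 : W * W' = 1)
    (c : ∀ B f, Q.fld B → In S f → ∃ C g, Q.fld C ∧ In S' g ∧ ∀ v, u (B f v) = C g (u v)) :
    ∀ X ∈ N Q S, W * X * W' ∈ N Q S' := fun X hX => (mem_cmt ws_star).2 fun Z hZ => by
  have k := (mem_cmt ws_star).1 hX (W' * Z * W) fun B f P' hB hf a v w => by
    obtain ⟨C, g, hC, hg, e⟩ := c B f hB hf
    obtain ⟨C', -, b⟩ := fad hC
    have e' : u (P' w) = C' (bar g) (u w) := ext_inner_left ℂ fun x => by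
      obtain ⟨x, rfl⟩ := su x
      rw [iu, ← a, ← b g hg.1, ← e, iu]
    simp only [ContinuousLinearMap.mul_apply, ad, hu, e, e']
    exact hZ C g _ hC hg (b g hg.1) _ _
  calc Z * (W * X * W') = W * (W' * Z * W * X) * W' := by
        simp only [← mul_assoc, w1, one_mul]
    _ = _ := by rw [k]; simp only [mul_assoc, w1, mul_one]

section

variable (g : Gr Q G) (ex : ∀ v : D, Γ v = (G v : D))
include g ex

theorem sg (x y : Completion D) : ⟪x, Γ y⟫_ℂ = ⟪Γ x, y⟫_ℂ :=
  Completion.induction_on₂ x y (isClosed_eq (by fun_prop) (by fun_prop)) fun v w => by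
    rw [ex, ex, Completion.inner_coe, Completion.inner_coe, g.herm]

theorem gam (h : CntF Q) : ∀ X ∈ N Q S, Γ * X * Γ ∈ N Q S :=
  trans (u := G) ex (fun v => ⟨_, g.inv v⟩) (fun v w => by rw [g.herm, g.inv]) (sg g ex)
    (Lg.g2 g ex) fun B f hB hf => by
      obtain ⟨C, C', c, c', e⟩ := g.split B hB
      obtain ⟨s, -, hs⟩ := h.cnt
      refine ⟨C - C', f, (hs _).2 (sub_mem ((hs _).1 (Q.bose_fld _ c)) ((hs _).1 c'.1)), hf,
        fun v => ?_⟩
      show _ = C f _ - C' f _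
      rw [e f v hf.1, g.bose C f v c hf.1, c'.2 f v hf.1, sub_neg_eq_add]
      exact (Ad.L g.herm).map_add _ _

theorem loc (R : Dr Q) (e : LEB Q) (h : CntF Q) {a b : V} (ha : IsNull a) (hb : IsNull b)
    {X : Completion D →L[ℂ] Completion D} (hX : X ∈ N Q (Wdg b a 0)) :
    X + Γ * X * Γ ∈ WS Q (Wdg a b 0) ∧ (X - Γ * X * Γ) * Γ ∈ WS Q (Wdg a b 0) := by
  have g2 := Lg.g2 g ex
  have gg : ∀ x, Γ * (Γ * x) = x := fun x => by rw [← mul_assoc, g2, one_mul]
  have he : Γ * (X + Γ * X * Γ) = (X + Γ * X * Γ) * Γ := by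
    simp only [mul_add, add_mul, mul_assoc, gg, g2, mul_one]; abel
  have hk : Γ * (X - Γ * X * Γ) = -((X - Γ * X * Γ) * Γ) := by
    simp only [mul_sub, sub_mul, mul_assoc, gg, g2, mul_one]; abel
  have m1 := add_mem hX (gam g ex h X hX)
  have m2 := sub_mem hX (gam g ex h X hX)
  generalize X + Γ * X * Γ = Y at *
  generalize X - Γ * X * Γ = Z at *
  have ex' : ∀ v, ι (G v) = Γ (ι v) := fun v => (ex v).symm
  have dG : ∀ v, dL R ((Ad.L g.herm) v) = (Ad.L g.herm) (dL R v) := fun v =>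
    ext_inner_left ℂ fun z => by
      have h1 := (hasDerivAt_const (0 : ℝ) z).inner ℂ (R o (G v))
      have h2 := (hasDerivAt_const (0 : ℝ) (G z)).inner ℂ (R o v)
      rw [inner_zero_left, add_zero] at h1 h2
      simp only [H246.U1, g.GU _ _ _ _ one_pos isLor_one, ← g.herm] at h1 h2
      exact (h1.unique h2).trans (g.herm _ _)
  have nG : ∀ v, ‖ι ((Ad.L g.herm) v)‖ = ‖ι v‖ := fun v => by
    rw [ni, ni, norm_eq_sqrt_re_inner (𝕜 := ℂ), norm_eq_sqrt_re_inner (𝕜 := ℂ) v]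
    exact congrArg (fun x => √(RCLike.re x)) ((g.herm _ _).trans (congrArg _ (g.inv v)))
  have k : ∀ B f P', Q.fld B → In (Wdg a b 0) f → Ad (B f) P' →
      Wc ι (B f) P' Y ∧ Wc ι (B f) P' (Z * Γ) := fun B f P' hB hf ad => by
    obtain ⟨C, C', c, c', sp⟩ := g.split B hB
    obtain ⟨E, hE, a1⟩ := fad (Q.bose_fld _ c)
    obtain ⟨E', hE', a2⟩ := fad c'.1
    have a1 := a1 f hf.1
    have a2 := a2 f hf.1
    have e' : ∀ w, P' w = E (bar f) w + E' (bar f) w := fun w => ext_inner_left ℂ fun v => by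
      rw [← ad, sp f v hf.1, inner_add_left, inner_add_right, a1, a2]
    have k1 := key R e a1 (t2 R e (Q.bose_fld _ c) hf) (t2 R e hE (in_bar hf))
      fun B' f' v hB' hf' => Q.loc C B' f f' v c hB' hf.1 hf'.1 (wdg_sep hb ha hf hf')
    have k2 := key (S := Wdg b a 0) (P := fun v => C' f (G v)) (P' := fun v => G (E' (bar f) v)) R e
      (fun v w => by rw [a2, g.herm]) ((t2 R e c'.1 hf).comp _ dG nG).1
      ((t2 R e hE' (in_bar hf)).comp _ dG nG).2 fun B' f' v hB' hf' => by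
        obtain ⟨F, F', x, x', sp'⟩ := g.split B' hB'
        have l1 : ∀ x y, G (x + y) = G x + G y := (Ad.L g.herm).map_add
        have l2 : ∀ x y, C' f (x + y) = C' f x + C' f y := a2.L.map_add
        have l3 : ∀ x, C' f (-x) = -C' f x := a2.L.map_neg
        have l4 := x'.2 f' v hf'.1
        rw [← neg_eq_iff_eq_neg] at l4
        rw [sp' f' _ hf'.1, sp' f' _ hf'.1, l1, l2, ← g.bose F f' v x hf'.1, ← l4, l3,
          Q.loc F C' f' f _ x c'.1 hf'.1 hf.1 (wdg_sep ha hb hf' hf),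
          g.anti C' F' f f' _ c' x' hf.1 hf'.1 (wdg_sep hb ha hf hf'), neg_neg]
    refine ⟨fun v w => ?_, fun v w => ?_⟩
    · have q := k2 Y m1 (G v) w
      simp only [g.inv] at q
      rw [ex', ex', ← sg g ex, ← ContinuousLinearMap.mul_apply Y, ← he,
        ← ContinuousLinearMap.mul_apply, gg] at q
      rw [e', sp f v hf.1, map_add, map_add, map_add, inner_add_left, inner_add_right,
        k1 Y m1 v w, q]
    · have q := k2 Z m2 v w
      have q' := k1 Z m2 (G v) w
      simp only [c'.2 f v hf.1] at q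
      rw [ex', ← sg g ex, ← ContinuousLinearMap.mul_apply, hk, map_neg, map_neg, ex',
        ContinuousLinearMap.neg_apply, inner_neg_right, inner_neg_right, neg_inj] at q
      rw [g.bose C f v c hf.1, ex', ex'] at q'
      rw [e', sp f v hf.1, map_add, map_add, map_add, inner_add_left, inner_add_right, q]
      exact congrArg (· + _) q'
  exact ⟨fun B f P' p q r => (k B f P' p q r).1, fun B f P' p q r => (k B f P' p q r).2⟩

end

theorem cov (g : Gr Q G) (h : CntF Q) {s : ℝ} {L : Ix → V} (hs : 0 < s) (hL : IsLor L) (y : V) :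
    ∀ X ∈ N Q S, Lg.W Q hs hL y * X * star (Lg.W Q hs hL y) ∈ N Q (sim s L y '' S) :=
  trans (u := Q.U s L y) (Lg.W_coe hs hL y) (Lg.sur g hs hL y) (fun v w => Q.U_inner _ _ _ _ _ hs hL)
    (fun x z => ContinuousLinearMap.adjoint_inner_right _ _ _) (Lg.W_star g hs hL y)
    fun B f hB hf => by
      obtain ⟨C, hC, -, e⟩ := h.cov s L B hs hL hB
      set τ := sim s⁻¹ (H246.linv L) (-(sim s⁻¹ (H246.linv L) 0 y)) with hτ
      have i1 : ∀ x, sim s L y (τ x) = x := BW.ue_sim hs hL y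
      have i2 : ∀ x, τ (sim s L y x) = x := by
        intro x
        have k := BW.ue_sim (inv_pos.2 hs) (H246.isLor_linv hL) (-(sim s⁻¹ (H246.linv L) 0 y))
        rw [← hτ] at k
        rw [(congrArg (sim s L y) (k x).symm).trans (i1 _)]
        exact k x
      obtain ⟨F, hFf⟩ := hf.1
      have sm : ContDiff ℝ (⊤ : ℕ∞) f := by rw [← hFf]; exact F.smooth ⊤
      have sub : tsupport (fun x => f (τ x)) ⊆ sim s L y '' tsupport f :=
        closure_minimal (fun x hx => ⟨τ x, subset_closure hx, i1 x⟩)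
          (hf.2.1.isCompact.image (sim_cont s L y)).isClosed
      have cs : HasCompactSupport fun x => f (τ x) :=
        (hf.2.1.isCompact.image (sim_cont s L y)).of_isClosed_subset (isClosed_tsupport _) sub
      have hg : In (sim s L y '' S) fun x => f (τ x) :=
        ⟨⟨cs.toSchwartzMap (sm.comp (sim_smooth _ _ _)), rfl⟩, cs,
          sub.trans (Set.image_mono hf.2.2)⟩
      refine ⟨C, _, hC, hg, fun v => ?_⟩
      have m : ∀ v, Q.U s L y v = Q.U 1 GF.one y (Q.U s L 0 v) := fun v => by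
        rw [P352X.Fss.G.m1_gr (Br.gr.1 g) 1 GF.one y s L 0 v one_pos hs isLor_one hL (.inl rfl)]
        simp only [one_mul, HM.sim_tr, zero_add, add_zero]
      have t : IsTest fun x => f (τ (sim 1 GF.one y x)) := by
        obtain ⟨F, hF⟩ := exists_fl hg.1
        have := fl_shift y F
        rw [hF] at this
        exact this ▸ isTest_fl _
      have z : ∀ x, sim 1 GF.one y (sim s L 0 x) = sim s L y x := fun x => by
        rw [HM.sim_tr]; funext n; simp [sim, add_comm]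
      rw [m, m, Q.transl C y _ _ hC hg.1, ← e _ v t]
      simp only [z, i2]

theorem ebd (e : LEB Q) : EBd Q := fun B hB => ⟨1, fun f hf =>
  have ⟨c, h⟩ := e B f hB hf
  ⟨|c|, fun v => (h v).trans ((mul_le_mul_of_nonneg_right (le_abs_self c) (by positivity)).trans
    (mul_le_mul_of_nonneg_left (add_le_add le_rfl (Finset.single_le_sum
      (f := fun m => ‖Dv Q m v‖) (fun _ _ => norm_nonneg _) (Finset.mem_univ o))) (abs_nonneg c)))⟩⟩

/-- **linear energy bounds give a graded local net** -/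
theorem net {A : (V → V) → D → D} (g : Gr Q G) (vac : G Q.vac = Q.vac)
    (add : ∀ r r' (c : ℝ) X X' v, IsSim r X → IsSim r' X' →
      A (fun z => X z + c • X' z) v = A X v + (c : ℂ) • A X' v) (der : Gnr Q A) (h : CntF Q)
    (e : LEB Q) : ∃ Γ N, LNg Q G A Γ N := by
  have R : Dr Q := fun m v => by
    have := L72.der der m v
    simp only [H246.bas_eq m] at this
    exact this
  obtain ⟨Γ, ex⟩ := ex (ι ∘ₗ Ad.L g.herm) ι (fun _ => rfl) Completion.denseRange_coe ⟨1, fun v => by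
    rw [one_mul, LinearMap.comp_apply, ni, ni, norm_eq_sqrt_re_inner (𝕜 := ℂ),
      norm_eq_sqrt_re_inner (𝕜 := ℂ) v]
    exact (congrArg (fun x => √(RCLike.re x)) ((g.herm _ _).trans (congrArg _ (g.inv v)))).le⟩
  have cm : ∀ S, ∀ Y ∈ WS Q S, Y ∈ (N Q S).commutant := fun S Y hY =>
    VonNeumannAlgebra.mem_commutant_iff.2 fun X hX => ((mem_cmt ws_star).1 hX Y hY).symm
  exact ⟨Γ, N Q, g, vac, add, der, ex, fun _ _ _ => aff R e,
    fun S S' k X hX => (mem_cmt ws_star).2 fun Y hY => (mem_cmt ws_star).1 hX Y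
      fun B f P' a b => hY B f P' a ⟨b.1, b.2.1, b.2.2.trans k⟩,
    fun s L y S X hX hs hL => ⟨_, cov g h hs hL y X hX, DFunLike.congr_fun
      (by rw [mul_assoc, Lg.star_W, mul_one] : _ * Lg.W Q hs hL y = Lg.W Q hs hL y * X)⟩,
    fun _ => gam g ex h, fun a b X ha hb _ hX =>
      (loc g ex R e h ha hb hX).imp (cm _ _) (cm _ _)⟩

end Vale.Agent.P352R.Le
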