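import Vale.Agent.P352R.Le.Net
import Vale.Agent.P352R.Lg.Top

/-!
# P352R, block Le: linear energy bounds give a graded local net, multiplets (helper85)
-/

set_option autoImplicit false
set_option linter.all false

noncomputable section

namespace Vale.Agent.P352R.Le

open P352 GF P352R.P P352R.G P352W.Net P352X.EG.Wb
open UniformSpace (Completion)
open scoped InnerProductSpace

variable {D : Type*} [NormedAddCommGroup D] [InnerProductSpace ℂ D] {Q : Theory D} {G : D → D}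
  {Γ : Completion D →L[ℂ] Completion D} {S S' : Set V} {P P' : D → D} {B : Fld D} {f : Fn}

def Sp (Q : Theory D) (S : Set V) (P : D → D) : Prop :=
  ∃ P', Ad P P' ∧ ∀ Y ∈ WS Q S, Wc ι P P' Y

theorem Sp.fld (hB : Q.fld B) (hf : In S f) : Sp Q S (B f) :=
  have ⟨_, _, a⟩ := fad hB
  ⟨_, a f hf.1, fun _ h => h _ _ _ hB hf (a f hf.1)⟩

theorem Sp.sum {n : ℕ} (c : Fin n → ℂ) {P : Fin n → D → D} (h : ∀ i, Sp Q S (P i)) :
    Sp Q S fun v => ∑ i, c i • P i v := by
  choose P' a b using h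
  refine ⟨fun v => ∑ i, star (c i) • P' i v, fun v w => ?_, fun Y hY v w => ?_⟩
  · simp only [sum_inner, _root_.inner_sum, inner_smul_left, inner_smul_right]
    exact Finset.sum_congr rfl fun i _ => by rw [a i]; rfl
  · simp only [map_sum, map_smul, sum_inner, _root_.inner_sum, inner_smul_left, inner_smul_right]
    exact Finset.sum_congr rfl fun i _ => by rw [b i Y hY]; simp

theorem Sp.gam (g : Gr Q G) (hB : Q.fld B) (hf : In S f) : Sp Q S fun v => G (B f (G v)) := by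
  obtain ⟨C, C', c, c', e⟩ := g.split B hB
  have := Sp.sum (Q := Q) (S := S) ![1, -1] (P := ![C f, C' f]) (Fin.forall_fin_two.2
    ⟨.fld (Q.bose_fld _ c) hf, .fld c'.1 hf⟩)
  convert this using 2 with v
  have l : ∀ x y, G (x + -y) = G x + -G y := fun x y =>
    ((Ad.L g.herm).map_add _ _).trans (congrArg _ ((Ad.L g.herm).map_neg _))
  rw [e f _ hf.1, g.bose C f v c hf.1, c'.2 f v hf.1, l, g.inv, g.inv]
  simp

theorem trans2 {W W' : Completion D →L[ℂ] Completion D} {u : D → D} (hu : ∀ v, W (ι v) = ι (u v))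
    (su : Function.Surjective u) (iu : ∀ v w, ⟪u v, u w⟫_ℂ = ⟪v, w⟫_ℂ)
    (ad : ∀ x y, ⟪x, W' y⟫_ℂ = ⟪W x, y⟫_ℂ) (w1 : W * W' = 1)
    (c : ∀ B f, Q.fld B → In S f → ∃ P, Sp Q S' P ∧ ∀ v, u (B f v) = P (u v)) :
    ∀ X ∈ N Q S, W * X * W' ∈ N Q S' := fun X hX => (mem_cmt ws_star).2 fun Z hZ => by
  have k := (mem_cmt ws_star).1 hX (W' * Z * W) fun B f P' hB hf a v w => by
    obtain ⟨C, ⟨C', b, k⟩, e⟩ := c B f hB hf
    have e' : u (P' w) = C' (u w) := ext_inner_left ℂ fun x => by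
      obtain ⟨x, rfl⟩ := su x
      rw [iu, ← a, ← b, ← e, iu]
    simp only [ContinuousLinearMap.mul_apply, ad, hu, e, e']
    exact k Z hZ _ _
  calc Z * (W * X * W') = W * (W' * Z * W * X) * W' := by
        simp only [← mul_assoc, w1, one_mul]
    _ = _ := by rw [k]; simp only [mul_assoc, w1, mul_one]

theorem gam2 (g : Gr Q G) (ex : ∀ v : D, Γ v = (G v : D)) : ∀ X ∈ N Q S, Γ * X * Γ ∈ N Q S :=
  trans2 (u := G) ex (fun v => ⟨_, g.inv v⟩) (fun v w => by rw [g.herm, g.inv]) (sg g ex)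
    (Lg.g2 g ex) fun B f hB hf => ⟨_, .gam g hB hf, fun v => by simp only [g.inv]⟩

theorem cv (g : Gr Q G) {s : ℝ} {L : Ix → V} (hs : 0 < s) (hL : IsLor L) (y : V)
    (c : ∀ S B f, Q.fld B → In S f → ∃ P, Sp Q S P ∧
      ∀ v, Q.U s L y (B (fun x => f (sim s L y x)) v) = P (Q.U s L y v)) (S : Set V) :
    ∀ X ∈ N Q S, ∃ Y ∈ N Q (sim s L y '' S), Y * Lg.W Q hs hL y = Lg.W Q hs hL y * X :=
  fun X hX => ⟨_, trans2 (W' := star (Lg.W Q hs hL y)) (u := Q.U s L y) (Lg.W_coe hs hL y) (Lg.sur g hs hL y)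
    (fun v w => Q.U_inner _ _ _ _ _ hs hL)
    (fun x z => ContinuousLinearMap.adjoint_inner_right _ _ _) (Lg.W_star g hs hL y)
    (fun B f hB hf => by
      set τ := sim s⁻¹ (H246.linv L) (-(sim s⁻¹ (H246.linv L) 0 y)) with hτ
      have i1 : ∀ x, sim s L y (τ x) = x := BW.ue_sim hs hL y
      have i2 : ∀ x, τ (sim s L y x) = x := by
        intro x
        have k := BW.ue_sim (inv_pos.2 hs) (H246.isLor_linv hL) (-(sim s⁻¹ (H246.linv L) 0 y))
        rw [← hτ] at k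
        rw [(congrArg (sim s L y) (k x).symm).trans (i1 _)]
        exact k x
      obtain ⟨F, hFf⟩ := hf.1
      have sm : ContDiff ℝ (⊤ : ℕ∞) f := by rw [← hFf]; exact F.smooth ⊤
      have sub : tsupport (fun x => f (τ x)) ⊆ sim s L y '' tsupport f :=
        closure_minimal (fun x hx => ⟨τ x, subset_closure hx, i1 x⟩)
          (hf.2.1.isCompact.image (sim_cont s L y)).isClosed
      have cs : HasCompactSupport fun x => f (τ x) :=
        (hf.2.1.isCompact.image (sim_cont s L y)).of_isClosed_subset (isClosed_tsupport _) sub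
      have hg : In (sim s L y '' S) fun x => f (τ x) :=
        ⟨⟨cs.toSchwartzMap (sm.comp (sim_smooth _ _ _)), rfl⟩, cs,
          sub.trans (Set.image_mono hf.2.2)⟩
      simpa only [i2] using c _ B _ hB hg) X hX, by rw [mul_assoc, Lg.star_W, mul_one]⟩

theorem lor (g : Gr Q G) (h : CntF Q ∨ MfA Q) {L : Ix → V} (hL : IsLor L) (S : Set V) (B : Fld D)
    (f : Fn) (hB : Q.fld B) (hf : In S f) : ∃ P, Sp Q S P ∧
      ∀ v, Q.U 1 L 0 (B (fun x => f (sim 1 L 0 x)) v) = P (Q.U 1 L 0 v) := by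
  rcases h with h | h
  · obtain ⟨C, c, -, e⟩ := h.cov 1 L B one_pos hL hB
    exact ⟨_, .fld c hf, fun v => e f v hf.1⟩
  have hL' := H246.isLor_linv hL
  obtain ⟨E, e1, e2, e3⟩ : ∃ E : D → D, (∀ x, E (E x) = x) ∧
      (∀ x, Q.U 1 L 0 (Q.U 1 (H246.linv L) 0 x) = E x) ∧
      ∀ B, Q.fld B → Sp Q S fun v => E (B f (E v)) := by
    have z : sim 1 L 0 0 = 0 := by funext n; simp [sim]
    rcases g.mul 1 L 0 1 _ 0 one_pos one_pos hL hL' with k | ⟨-, -, k⟩
    · exact ⟨id, fun _ => rfl, fun x => by rw [k, H755.linv_id hL, mul_one, z, H755.Uone]; rfl,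
        fun B b => .fld b hf⟩
    · exact ⟨G, g.inv, fun x => by rw [k, H755.linv_id hL, mul_one, z, H755.Uone],
        fun B b => .gam g b hf⟩
  let u : D →ₗ[ℂ] D := ⟨⟨Q.U 1 L 0, U_add one_pos hL 0⟩, U_smul one_pos hL 0⟩
  have t : IsTest fun x => f (sim 1 L 0 x) := P352X.Grp.test_sim one_pos hL 0 hf.1
  have iv : ∀ x, sim 1 L 0 (sim 1 (H246.linv L) 0 x) = x := H755.sim_linv hL
  obtain ⟨n, C, c, e⟩ := h B hB
  have k : ∀ i, ∃ P, Sp Q S P ∧
      ∀ v, Q.U 1 L 0 (C i (fun x => f (sim 1 L 0 x)) v) = P (Q.U 1 L 0 v) := fun i => by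
    obtain ⟨k, Φ, a, ⟨p, q⟩, r⟩ := c i
    refine ⟨_, .sum (fun b => k.ρ (H246.linv L) b a) fun b => e3 _ (p b), fun v => ?_⟩
    obtain ⟨x, rfl⟩ := Lg.sur g one_pos hL' 0 v
    rw [r, q a _ _ x hL' t]
    refine (map_sum u _ _).trans (Finset.sum_congr rfl fun b _ => (map_smul u _ _).trans ?_)
    simp only [iv, e2, e1]
    exact congrArg _ (e2 _)
  choose P p q using k
  refine ⟨_, .sum (fun _ => 1) p, fun v => ?_⟩
  rw [e _ v t]
  exact (map_sum u _ _).trans (Finset.sum_congr rfl fun i _ => (q i v).trans (one_smul _ _).symm)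

theorem cov2 (g : Gr Q G) (h : CntF Q ∨ MfA Q ∧ FSL Q) {s : ℝ} {L : Ix → V} (hs : 0 < s)
    (hL : IsLor L) (y : V) :
    ∀ X ∈ N Q S, ∃ Y ∈ N Q (sim s L y '' S), Y * Lg.W Q hs hL y = Lg.W Q hs hL y * X := by
  intro X hX
  obtain ⟨X1, m1, e1⟩ := cv g one_pos hL 0 (lor g (h.imp_right And.left) hL) S X hX
  obtain ⟨X2, m2, e2⟩ := cv g hs isLor_one 0 (fun S B f hB hf =>
    have ⟨n, c, A, a, b⟩ := (Lg.cd g (h.imp_right And.right) s hs).2 B hB
    ⟨_, .sum c fun i => .fld (a i) hf, fun v => b f v hf.1⟩) _ X1 m1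
  obtain ⟨X3, m3, e3⟩ := cv g one_pos isLor_one y (fun S B f hB hf =>
    ⟨_, .fld hB hf, fun v => (Q.transl B y f v hB hf.1).symm⟩) _ X2 m2
  have z : ∀ x, sim 1 GF.one y (sim s GF.one 0 (sim 1 L 0 x)) = sim s L y x := fun x => by
    funext n; simp [sim, GF.one, bas]
  have w : Lg.W Q hs hL y =
      Lg.W Q one_pos isLor_one y * (Lg.W Q hs isLor_one 0 * Lg.W Q one_pos hL 0) :=
    Lg.extC fun v => by
      have m := P352X.Fss.G.m1_gr (Br.gr.1 g)
      rw [ContinuousLinearMap.mul_apply, ContinuousLinearMap.mul_apply, Lg.W_coe, Lg.W_coe,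
        Lg.W_coe, Lg.W_coe, m s _ 0 1 L 0 v hs one_pos isLor_one hL (.inl rfl),
        m 1 _ y _ _ _ v one_pos (mul_pos hs one_pos) isLor_one (BW.ue_lor isLor_one hL) (.inl rfl)]
      have z0 : sim s GF.one 0 0 = 0 := by funext n; simp [sim]
      simp only [one_mul, mul_one, HM.sim_tr, zero_add, add_zero, z0]
  refine ⟨X3, by simpa only [Set.image_image, z] using m3, ?_⟩
  rw [w, ← mul_assoc, e3, mul_assoc, ← mul_assoc X2, e2, mul_assoc, e1]
  simp only [mul_assoc]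

theorem loc2 (g : Gr Q G) (ex : ∀ v : D, Γ v = (G v : D)) (R : Dr Q) (e : LEB Q)
    {a b : V} (ha : IsNull a) (hb : IsNull b)
    {X : Completion D →L[ℂ] Completion D} (hX : X ∈ N Q (Wdg b a 0)) :
    X + Γ * X * Γ ∈ WS Q (Wdg a b 0) ∧ (X - Γ * X * Γ) * Γ ∈ WS Q (Wdg a b 0) := by
  have g2 := Lg.g2 g ex
  have gg : ∀ x, Γ * (Γ * x) = x := fun x => by rw [← mul_assoc, g2, one_mul]
  have he : Γ * (X + Γ * X * Γ) = (X + Γ * X * Γ) * Γ := by
    simp only [mul_add, add_mul, mul_assoc, gg, g2, mul_one]; abel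
  have hk : Γ * (X - Γ * X * Γ) = -((X - Γ * X * Γ) * Γ) := by
    simp only [mul_sub, sub_mul, mul_assoc, gg, g2, mul_one]; abel
  have m1 := add_mem hX (gam2 g ex X hX)
  have m2 := sub_mem hX (gam2 g ex X hX)
  generalize X + Γ * X * Γ = Y at *
  generalize X - Γ * X * Γ = Z at *
  have ex' : ∀ v, ι (G v) = Γ (ι v) := fun v => (ex v).symm
  have dG : ∀ v, dL R ((Ad.L g.herm) v) = (Ad.L g.herm) (dL R v) := fun v =>
    ext_inner_left ℂ fun z => by
      have h1 := (hasDerivAt_const (0 : ℝ) z).inner ℂ (R o (G v))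
      have h2 := (hasDerivAt_const (0 : ℝ) (G z)).inner ℂ (R o v)
      rw [inner_zero_left, add_zero] at h1 h2
      simp only [H246.U1, g.GU _ _ _ _ one_pos isLor_one, ← g.herm] at h1 h2
      exact (h1.unique h2).trans (g.herm _ _)
  have nG : ∀ v, ‖ι ((Ad.L g.herm) v)‖ = ‖ι v‖ := fun v => by
    rw [ni, ni, norm_eq_sqrt_re_inner (𝕜 := ℂ), norm_eq_sqrt_re_inner (𝕜 := ℂ) v]
    exact congrArg (fun x => √(RCLike.re x)) ((g.herm _ _).trans (congrArg _ (g.inv v)))
  have k : ∀ B f P', Q.fld B → In (Wdg a b 0) f → Ad (B f) P' →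
      Wc ι (B f) P' Y ∧ Wc ι (B f) P' (Z * Γ) := fun B f P' hB hf ad => by
    obtain ⟨C, C', c, c', sp⟩ := g.split B hB
    obtain ⟨E, hE, a1⟩ := fad (Q.bose_fld _ c)
    obtain ⟨E', hE', a2⟩ := fad c'.1
    have a1 := a1 f hf.1
    have a2 := a2 f hf.1
    have e' : ∀ w, P' w = E (bar f) w + E' (bar f) w := fun w => ext_inner_left ℂ fun v => by
      rw [← ad, sp f v hf.1, inner_add_left, inner_add_right, a1, a2]
    have k1 := key R e a1 (t2 R e (Q.bose_fld _ c) hf) (t2 R e hE (in_bar hf))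
      fun B' f' v hB' hf' => Q.loc C B' f f' v c hB' hf.1 hf'.1 (wdg_sep hb ha hf hf')
    have k2 := key (S := Wdg b a 0) (P := fun v => C' f (G v)) (P' := fun v => G (E' (bar f) v)) R e
      (fun v w => by rw [a2, g.herm]) ((t2 R e c'.1 hf).comp _ dG nG).1
      ((t2 R e hE' (in_bar hf)).comp _ dG nG).2 fun B' f' v hB' hf' => by
        obtain ⟨F, F', x, x', sp'⟩ := g.split B' hB'
        have l1 : ∀ x y, G (x + y) = G x + G y := (Ad.L g.herm).map_add
        have l2 : ∀ x y, C' f (x + y) = C' f x + C' f y := a2.L.map_add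
        have l3 : ∀ x, C' f (-x) = -C' f x := a2.L.map_neg
        have l4 := x'.2 f' v hf'.1
        rw [← neg_eq_iff_eq_neg] at l4
        rw [sp' f' _ hf'.1, sp' f' _ hf'.1, l1, l2, ← g.bose F f' v x hf'.1, ← l4, l3,
          Q.loc F C' f' f _ x c'.1 hf'.1 hf.1 (wdg_sep ha hb hf' hf),
          g.anti C' F' f f' _ c' x' hf.1 hf'.1 (wdg_sep hb ha hf hf'), neg_neg]
    refine ⟨fun v w => ?_, fun v w => ?_⟩
    · have q := k2 Y m1 (G v) w
      simp only [g.inv] at q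
      rw [ex', ex', ← sg g ex, ← ContinuousLinearMap.mul_apply Y, ← he,
        ← ContinuousLinearMap.mul_apply, gg] at q
      rw [e', sp f v hf.1, map_add, map_add, map_add, inner_add_left, inner_add_right,
        k1 Y m1 v w, q]
    · have q := k2 Z m2 v w
      have q' := k1 Z m2 (G v) w
      simp only [c'.2 f v hf.1] at q
      rw [ex', ← sg g ex, ← ContinuousLinearMap.mul_apply, hk, map_neg, map_neg, ex',
        ContinuousLinearMap.neg_apply, inner_neg_right, inner_neg_right, neg_inj] at q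
      rw [g.bose C f v c hf.1, ex', ex'] at q'
      rw [e', sp f v hf.1, map_add, map_add, map_add, inner_add_left, inner_add_right, q]
      exact congrArg (· + _) q'
  exact ⟨fun B f P' p q r => (k B f P' p q r).1, fun B f P' p q r => (k B f P' p q r).2⟩

/-- **linear energy bounds give a graded local net** -/
theorem net2 {A : (V → V) → D → D} (g : Gr Q G) (vac : G Q.vac = Q.vac)
    (add : ∀ r r' (c : ℝ) X X' v, IsSim r X → IsSim r' X' →
      A (fun z => X z + c • X' z) v = A X v + (c : ℂ) • A X' v) (der : Gnr Q A) 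
    (h : CntF Q ∨ MfA Q ∧ FSL Q) (e : LEB Q) : ∃ Γ N, LNg Q G A Γ N := by
  have R : Dr Q := fun m v => by
    have := L72.der der m v
    simp only [H246.bas_eq m] at this
    exact this
  obtain ⟨Γ, ex⟩ := ex (ι ∘ₗ Ad.L g.herm) ι (fun _ => rfl) Completion.denseRange_coe ⟨1, fun v => by
    rw [one_mul, LinearMap.comp_apply, ni, ni, norm_eq_sqrt_re_inner (𝕜 := ℂ),
      norm_eq_sqrt_re_inner (𝕜 := ℂ) v]
    exact (congrArg (fun x => √(RCLike.re x)) ((g.herm _ _).trans (congrArg _ (g.inv v)))).le⟩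
  have cm : ∀ S, ∀ Y ∈ WS Q S, Y ∈ (N Q S).commutant := fun S Y hY =>
    VonNeumannAlgebra.mem_commutant_iff.2 fun X hX => ((mem_cmt ws_star).1 hX Y hY).symm
  exact ⟨Γ, N Q, g, vac, add, der, ex, fun _ _ _ => aff R e,
    fun S S' k X hX => (mem_cmt ws_star).2 fun Y hY => (mem_cmt ws_star).1 hX Y
      fun B f P' a b => hY B f P' a ⟨b.1, b.2.1, b.2.2.trans k⟩,
    fun s L y S X hX hs hL => (cov2 g h hs hL y X hX).imp fun _ k =>
      ⟨k.1, DFunLike.congr_fun k.2⟩,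
    fun _ => gam2 g ex, fun a b X ha hb _ hX =>
      (loc2 g ex R e ha hb hX).imp (cm _ _) (cm _ _)⟩

end Vale.Agent.P352R.Le
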